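import Crest.Agent.X212.Usf71.Big
import Crest.Agent.X212.Inv14.Main
import Crest.Agent.X212.Nk89.Gwc
import Crest.Agent.X212.Wal14.Defs

/-!
# Row 212, USF (helper71), part 3: the ends at flat limits
-/

set_option autoImplicit false
set_option linter.unusedSectionVars false
noncomputable section
open scoped Manifold ContDiff Topology InnerProductSpace ENNReal
open MeasureTheory Set Function Filter Real

namespace Crest.Agent.X212.Usf71
open An An.Pre Sob92 Prm93 Fred93 Mod61 Map77 Nd18 Cyf70 Ell97 Nk89 Rdc90 Inv14 Wal14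

section gen
variable {E : Type} [NormedAddCommGroup E] [NormedSpace ℝ E] [FiniteDimensional ℝ E]
  [MeasurableSpace E] [BorelSpace E]
  {HM : Type} [TopologicalSpace HM] {I : ModelWithCorners ℝ E HM} [I.Boundaryless]
  {M : Type} [TopologicalSpace M] [ChartedSpace HM M] [IsManifold I ∞ M]
  [MeasurableSpace M] [T2Space M] [BorelSpace M] [SecondCountableTopology M]
  {ι : Type} [Fintype ι] {lam : Type} [Fintype lam]
  {T : Type} [NormedAddCommGroup T] [NormedSpace ℝ T]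

theorem full_rem {κ : Type} [Fintype κ] [DecidableEq κ] {d : Bd M ι κ} (h : d.OK)
    (G : An.Fr I M ι) (F : Pre I M ι) (u w : M → Cf ι κ) (x : M) (hw : d.pC x (w x) = w x) :
    (d.full (rem G F) u).app (rem G F) w x = (d.full G u).app G w x +
      i1 _ _ (∑ a, ((rem G F).dv a x - G.dv a x) • d.g x (fa (w x) a)) :=
  (op_pair _ _ _ w x).trans ((congrArg (fun v => i1 _ _ v + (i2 _ _ ((d.lin G u).app G w x)))
    (adj_rem_d0 h G F u w x hw)).trans (by
      rw [map_add, add_right_comm]; exact congrArg (· + _) (op_pair _ _ _ w x).symm))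

theorem TT_eq0 {𝔉 : Fam I M ι lam T} {o : Ref 𝔉} {r n m k : ℕ} (h : 𝔉.OK)
    (hz : ∀ (y : Pnt o r) x, eD n m (bs y) x = 0 ∧ Map77.eC n m (bs y) x = 0) (hk : 6 ≤ k)
    {f : o.C r k → o.Y n m k} (hf : RepF (𝔉.eq0 r n m) f) (y : Pnt o r) :
    TT k f y = (bd o).FF 𝔉.F0.toPre (Fs 𝔉 y.t) k (uy y) := ContinuousLinearMap.ext fun x => by
  have a := adj_rem h
  have e1 := a.fderiv_aff hk y contDiffOn_const (rep0 h hz hk) hf x
  simp only [fderiv_fun_const, Pi.zero_apply, ContinuousLinearMap.zero_comp,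
    ContinuousLinearMap.comp_zero, zero_apply, add_zero] at e1
  simp only [TG, _root_.add_apply, ContinuousLinearMap.comp_apply, e1,
    (a.hy o y.ht).FF_eq (cb_uy h y)]

/-- the drift at a point -/
def gN (N : ℕ) (P : CL (HS (Fin N)) (HS (Fin N))) (c : ι → ℝ) :
    Cf ι (Fin N) →L[ℝ] P2 (HS (Fin N)) (Ef ι (Fin N)) :=
  i1 _ _ ∘L ∑ a, c a • P ∘L Map77.pj _ a ∘L fa

theorem gD_eq {𝔉 : Fam I M ι lam T} (o : Ref 𝔉) (μ : ι → M → ℝ) (x : M) :
    gD o μ x = gN o.m.N (o.Pg x) fun a => μ a x := rfl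

variable {V W : Type} [NormedAddCommGroup V] [InnerProductSpace ℝ V]
  [NormedAddCommGroup W] [InnerProductSpace ℝ W]

theorem op_zero (F : Pre I M ι) (σ : ι → M → V →L[ℝ] W) (B : M → V →L[ℝ] W) {u : M → V} {x : M}
    (h : u =ᶠ[𝓝 x] 0) : F.op σ B u x = 0 := by
  have e : ∀ a, F.D a u x = 0 := fun a => (dv_congr h).trans (congrFun dv_zero x)
  simp [Pre.op, e, h.self_of_nhds]

/-- weights which agree on the supports -/
theorem nrm_wt {F F' : Pre I M ι} {ψ χ : M → ℝ} (w : WtP F F' ψ) (hD : ∀ a, F.Cb (F.D a ψ))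
    (j k : ℕ) {C : ℝ} (hC : 0 ≤ C) : ∃ K, ∀ {p q} (u : Sec I p) (v : Sec I q),
      (∀ x, ψ x ≠ χ x → u.1 x = (0 : V) ∧ v.1 x = (0 : W)) →
      F.nrm j (fun x => exp (χ x) • u.1 x) ≤ C * F.nrm k (fun x => exp (χ x) • v.1 x) →
      ‖F'.toH j p u‖ ≤ K * ‖F'.toH k q v‖ := by
  obtain ⟨D, hD⟩ := Cb_unif hD
  refine ⟨cW ι D j * (C * cW ι D k), fun u v e h => ?_⟩
  have e1 : (fun x => exp (χ x) • u.1 x) = fun x => exp (ψ x) • u.1 x := funext fun x => by
    by_cases k : ψ x = χ x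
    exacts [by rw [k], by rw [(e x k).1, smul_zero, smul_zero]]
  have e2 : (fun x => exp (χ x) • v.1 x) = fun x => exp (ψ x) • v.1 x := funext fun x => by
    by_cases k : ψ x = χ x
    exacts [by rw [k], by rw [(e x k).2, smul_zero, smul_zero]]
  rw [e1, e2] at h
  rw [norm_toH, norm_toH, mul_assoc, mul_assoc]
  exact (w.nrm_le_exp hD j u.2.1 u.2.2.1).trans (mul_le_mul_of_nonneg_left (h.trans
    (mul_le_mul_of_nonneg_left (w.nrm_exp_le hD k v.2.1 v.2.2.1) hC)) (cW_nonneg D j))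

end gen

section cyl
variable {κ lam : Type} [Fintype κ] [Fintype lam] {Y : X212.M.Mf 3}
  [CompactSpace Y.M] {D : YD Y.I Y.M κ lam} {β : YC Y.M κ lam} {O' : Set (Y.M × ℝ)} {δ : ℝ} {k : ℕ}

variable (κ Y) in
/-- a constant drift -/
def μZ (c : ℝ) (a : Option κ) (_ : Y.M × ℝ) : ℝ := a.elim c fun _ => 0

theorem cb_μZ (c : ℝ) (a : Option κ) : (famZ T0 D δ O').F0.Cb (μZ κ Y c a) := Cb_const _

variable (h : D.Adm β) (h0 : ∀ x ∉ O', β.Φ x.1 = 0)

theorem locZ0 (sg : ℝ) : LocZ (δ := δ) h h0 k (eq0 D.B D.G 0 0 0) sg := fun b ρ ε hε =>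
    ⟨b, fun y y' _ _ e => by
  have o : IsOpen {x : Y.M × ℝ | b < sg * x.2} := isOpen_lt continuous_const (by fun_prop)
  have l := fun x => loc0 (n := 0) (m := 0) (Subsingleton.elim y.t y'.t) o e (x := x)
  constructor <;> refine ((Gl67.N_congr o.measurableSet fun x hx => eventually_of_mem
    (o.mem_nhds hx) fun z hz => ?_).trans Gl67.N_zero).trans_le zero_le
  exacts [sub_eq_zero.2 (l z hz).1, sub_eq_zero.2 (l z hz).2]⟩

variable (H : Bs D β) (ok : (famZ T0 D δ O').OK)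
include H ok

set_option maxHeartbeats 1000000 in
theorem rep_cyl (hk : 6 ≤ k) {f} (hf : RepF (fun _ => eq0 D.B D.G 0 0 0) f) (c : ℝ) :
    (famZ T0 D δ O').F0.Rep (TT k f (yZ δ h h0) + ZR _ k (gD (refZ T0 δ h h0) (μZ κ Y c)))
      (Tz D β O' fun t => 2 * (δ * deriv ab t) + c) := by
  have Hy := (adj_rem ok).hy (refZ T0 δ h h0) (t := 0) trivial
  have e2 : uy (yZ δ h h0) = base (Rf65.cA β.W) 0 := congrArg₂ base (Ixz30.W_refZ h h0 0)
    ((add_zero _).trans (funext fun x => H.zr x.1))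
  have g := og_gD (o := refZ T0 δ h h0) ok (cb_μZ c)
  rw [TT_eq0 (o := refZ T0 δ h h0) ok (sol0 H h0) hk hf (yZ δ h h0)]
  refine RepT_congr (RepT_add (Hy.toTw.rep (Hy.nc_full (cb_uy ok (yZ δ h h0))) k)
    (rep_Z0 g.cb (.of_left g.pr))) fun w => funext fun x => ?_
  have e1 := congrArg An.Fr.dv (Ixc61.rem_self (famZ T0 D δ O').F0)
  have e3 : ∀ a, (bd (refZ T0 δ h h0)).g x (fa (w.1 x) a) = fa (w.1 x) a :=
    Op78.g_fa Hy.toOK (w.2.2.2 x)
  have e4 : ∀ a, (rem D.Z (famZ T0 D δ O').F0.toPre).dv a x - D.Z.dv a x =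
      2 * a.elim (δ * deriv ab x.2) fun _ => 0 := fun a =>
    (congrArg (· - _) ((congrFun₂ e1 a x).trans (wt_famZ.dv a x))).trans
      ((add_sub_cancel_left _ _).trans (by rw [D_wZ]))
  have e5 : drm (refZ T0 δ h h0) (μZ κ Y c) x (w.1 x) = c • fa (w.1 x) none := by
    rw [drm_apply]
    simp only [show ∀ a, (refZ T0 δ h h0).Pg x (fa (w.1 x) a) = _ from e3]
    simp [μZ]
  refine (congrArg₂ (· + ·) (full_rem Hy.toOK D.Z _ _ w.1 x (w.2.2.2 x))
    (congrArg (i1 _ _) e5)).trans ?_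
  simp only [e3, e4, e2, Tz, add_assoc, add_smul, Fintype.sum_option, Option.elim, mul_zero,
    zero_smul, Finset.sum_const_zero, add_zero, map_smul]
  exact congrArg₂ (· + ·) (congrArg (fun d : Bd _ _ _ => (d.full D.Z _).app D.Z w.1 x)
    (show bd (refZ T0 δ h h0) = bo D β O' from rfl)) rfl

omit H ok in
theorem dab_eq {sg t : ℝ} (h : sg = 1 ∨ sg = -1) (ht : 1 < sg * t) : deriv ab t = sg := by
  rw [show deriv ab t = deriv (fun s => sg * s) t from EventuallyEq.deriv_eq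
    (((continuous_const.mul continuous_id).continuousAt.eventually (lt_mem_nhds ht)).mono
      fun _ h' => ab_eq h h'.le)]
  simp

omit H ok in
theorem est_cyl {η sg : ℝ} (hs : sg = 1 ∨ sg = -1) (Z : ZE D β O' (k + 1) k δ η) {p q}
    (hp : p = (bo D β O').pC) {L : (famZ T0 D δ O').F0.H (k + 1) p →L[ℝ] (famZ T0 D δ O').F0.H k q}
    (hL : (famZ T0 D δ O').F0.Rep L (Tz D β O' fun t => 2 * (δ * deriv ab t) + (η - sg * δ)))
    {X : Type} [NormedAddCommGroup X] [NormedSpace ℝ X] {r : X →L[ℝ] _}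
    (hr : ∀ x, r x ∈ closure ((famZ T0 D δ O').F0.toH (k + 1) p ''
      {u | ∀ z : Y.M × ℝ, sg * z.2 ≤ 1 → u.1 z = 0})) : LP L r := by
  subst hp
  obtain ⟨C, C0, hC⟩ := Z sg hs
  obtain ⟨K, hK⟩ := nrm_wt (V := Cf (Option κ) (Fin β.m.N)) (W := P2 β.m.A (Ef (Option κ) (Fin β.m.N)))
    (wt_famZ (T := T0) (O' := O')).toWtP (cb_wZ D δ) (χ := fun x => δ * (sg * x.2)) (k + 1) k C0
  refine lp_of_range (K := (0 : _ →L[ℝ] ℝ)) (C := K) isCompactOperator_zero fun x => ?_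
  rw [_root_.zero_apply, norm_zero, add_zero]
  refine closure_minimal (t := {v | ‖v‖ ≤ K * ‖L v‖}) ?_ (isClosed_le (by fun_prop) (by fun_prop))
    (hr x)
  rintro _ ⟨u, hu, rfl⟩
  rw [mem_ofPred, RepT_toH hL]
  refine hK u _ (fun x hx => ?_) ((hC u.1 u.2).trans_eq ?_)
  · have e : sg * x.2 < 1 := not_le.1 fun e => hx (by rw [ab_eq hs e])
    refine ⟨hu x e.le, (congrArg₂ (· + ·) (op_zero _ _ _ (mem_of_superset
      ((isOpen_lt (by fun_prop) continuous_const).mem_nhds e) fun z hz => hu z hz.le)) ?_).trans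
      (add_zero 0)⟩
    rw [hu x e.le, map_zero, PiLp.zero_apply, map_zero, smul_zero]
  · rw [Pi.zero_apply, add_zero]
    refine congrArg (fun v => C * Dec35.nw _ _ _ v) (funext fun x => congrArg₂ (· + ·) rfl ?_)
    rcases le_or_gt (sg * x.2) 1 with e | e
    · rw [hu x e, map_zero, PiLp.zero_apply, map_zero, smul_zero, smul_zero]
    · beta_reduce
      rw [dab_eq hs e]; congr 1; ring

set_option maxHeartbeats 2000000 in
theorem lp_cyl (hk : 7 ≤ k) {η sg : ℝ} (hs : sg = 1 ∨ sg = -1) (Z : ZE D β O' (k + 1) k δ η) :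
    ∃ f, Aff (refZ T0 δ h h0) (Fs (famZ T0 D δ O')) 0 0 0 (fun _ => eq0 D.B D.G 0 0 0) ∧
      RepF (fun _ => eq0 D.B D.G 0 0 0) f ∧ ∀ {X : Type} [NormedAddCommGroup X] [NormedSpace ℝ X]
        {r : X →L[ℝ] _}, (∀ x, r x ∈ closure ((famZ T0 D δ O').F0.toH (k + 1) _ ''
          {u | ∀ z : Y.M × ℝ, sg * z.2 ≤ 1 → u.1 z = 0})) →
        LP (TT k f (yZ δ h h0) + ZR _ k (gD (refZ T0 δ h h0) (μZ κ Y (η - sg * δ)))) r :=
  have A := aff0 ok (sol0 H h0)
  let ⟨f, hf⟩ := (adj_rem ok).rp A k hk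
  ⟨f, A, hf, est_cyl hs Z rfl (rep_cyl h h0 H ok (by omega) hf _)⟩

end cyl

variable {E : Type} [NormedAddCommGroup E] [NormedSpace ℝ E] [FiniteDimensional ℝ E]
  [MeasurableSpace E] [BorelSpace E]
  {HM : Type} [TopologicalSpace HM] {I : ModelWithCorners ℝ E HM} [I.Boundaryless]
  {M : Type} [TopologicalSpace M] [ChartedSpace HM M] [IsManifold I ∞ M]
  [MeasurableSpace M] [T2Space M] [BorelSpace M] [SecondCountableTopology M]
  {κ lam : Type} [Fintype κ] [Fintype lam]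
  {T : Type} [NormedAddCommGroup T] [NormedSpace ℝ T] [FiniteDimensional ℝ T]
  {𝔉 : Fam I M (Option κ) lam T} {δ : ℝ} (X : Ends 𝔉 δ)

theorem rs_mem {V : Type} [NormedAddCommGroup V] [InnerProductSpace ℝ V] [FiniteDimensional ℝ V]
    {a : X.A} {b : ℝ} {k : ℕ} {p : M → V →L[ℝ] V} {p'} (m : X.Mb a b p p') (hk : 4 ≤ k) (O') (x) :
    X.rs a O' b k p p' x ∈ closure ((X.FZ a O').toH k p' ''
      {u | ∀ z, (X.P a).sg * z.2 ≤ 1 → u.1 z = 0}) :=
  H_ind (P := fun x => X.rs a O' b k p p' x ∈ closure _) x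
    (isClosed_closure.preimage (X.rs a O' b k p p').continuous) fun u =>
    let ⟨u', e1, e2⟩ := m.exists_rs (O' := O') hk u
    subset_closure ⟨u', fun z hz => by
      rw [e2, show (X.P a).θZ (b + 1) z = 0 from hc_zero (by linarith [m.h1]), zero_smul], e1.symm⟩

set_option maxHeartbeats 2000000 in
theorem endLP {o : Ref 𝔉} {R b η : ℝ} {r n m k : ℕ} {e : T → PtX M (Option κ) lam r n m} {t : T}
    {μ : Option κ → M → ℝ} {a : X.A} (hk : 7 ≤ k) (hl : X.Lit o R) (ha : X.Act a) (hb : R ≤ b)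
    (h1 : 1 ≤ b) (ht : t ∈ 𝔉.Q)
    (hμ : ∀ z ∈ (X.P a).H b, ∀ i, μZ κ _ (η - (X.P a).sg * δ) i z = μ i ((X.P a).K.ψ z))
    (hE : ∀ h h0, Bs (X.P a).D ((X.P a).sl o (R + 1) t) ∧
      ZE (X.P a).D ((X.P a).sl o (R + 1) t) ((X.P a).O' R) (k + 1) k δ η ∧
      (X.P a).Loc o k δ R e t h h0 (eq0 (X.P a).D.B (X.P a).D.G 0 0 0)) :
    EndLP X R b k o e (gD o μ) t a := fun h h0 => by
  have ok := X.okZ a R
  have q := lp_cyl h h0 (hE h h0).1 ok hk (X.P a).sg_cases (hE h h0).2.1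
  have e := fun z hz => (End.brel h h0 X.ok (X.okP a) hl.le (hl.lit a) ht hb ha).g z
    (((X.okP a).ch_src (hl.le.trans hb)).ge hz)
  have c1 := locZ0 (δ := δ) (k := k) h h0 (-(X.P a).sg)
  have c2 := og_gD (o := refZ T0 δ h h0) ok (cb_μZ (η - (X.P a).sg * δ))
  have c3 := rs_mem X (Ends.mbC (h := h) (h0 := h0) hl ha hb h1 ht) (k := k + 1) (by omega) ((X.P a).O' R)
  have c4 : ∀ z ∈ (X.P a).H b, gD (refZ T0 δ h h0) (μZ κ _ (η - (X.P a).sg * δ)) z =
      gD o μ ((X.P a).K.ψ z) := fun z hz => (gD_eq _ _ z).trans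
    ((congrArg₂ (gN o.m.N) (e z hz) (funext (hμ z hz))).trans (gD_eq o μ _).symm)
  have c5 := q.choose_spec.2.2 c3
  exact ⟨_, _, _, q.choose_spec.1, q.choose_spec.2.1, c1, (hE h h0).2.2, c2, c4, c5⟩

/-- **LEAF USF** -/
theorem usf : UsfAt X := fun o R r n m k e f y η g hk hl he hf d hE => by
  obtain ⟨b, hb⟩ := d.lit
  have e1 : drH o k (fun a => (𝔉.G y.t).F.D a g) = DH o k fun a => (𝔉.G y.t).F.D a g :=
    RepT_eq (RepT_comp (rep_mulH (cb_drm X.ok d.cb) (.of_left (pr_drm X.ok))) (rep_incl k.le_succ))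
      (rep_Z0 (cb_drm X.ok d.cb) (.of_left (pr_drm X.ok))) fun _ => rfl
  have H := lp_TT (b := max (max R 1) b) hk hl he hf y (by simp) (by simp) (og_gD X.ok d.cb)
    fun a ha => endLP X hk hl ha (by simp) (by simp) y.ht (fun z hz i => ?_) (hE a ha)
  · rw [ZR_gD X.ok d.cb] at H
    obtain ⟨K, C, k1, k2⟩ := (lp_slc X.ok y H).est
    exact ⟨_, _, _, K, C, k1, by rwa [sgm, e1]⟩
  obtain ⟨c, hc⟩ := hb a
  have k := ((X.okP a).gRel X.ok y.ht).fr.D (u := fun z => (η - (X.P a).sg * δ) * z.2 + c)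
    (show X.R < _ from lt_of_le_of_lt ((hl.le.trans (le_max_left _ _)).trans (le_max_left _ _)) hz) i
    (mem_of_superset (((X.P a).isOpen_H b).mem_nhds (show b < _ from lt_of_le_of_lt (le_max_right _ _) hz))
      fun z hz => (hc z hz).symm)
  have s : ContDiff ℝ ∞ fun s : ℝ => (η - (X.P a).sg * δ) * s + c := by fun_prop
  refine Eq.trans ?_ k
  cases i with
  | none => exact Eq.trans (by simp [μZ]) (congrFun (D_none_snd _ s) z).symm
  | some i => exact (congrFun (D_some_snd _ s i) z).symm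

end Crest.Agent.X212.Usf71
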