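import Crest.Agent.X212.Nk89.Frd

/-!
# Row 212, USF (helper71), part 1: upper semi-Fredholm operators on manifolds with ends
-/

set_option autoImplicit false
set_option linter.unusedSectionVars false
noncomputable section
open scoped Manifold ContDiff Topology InnerProductSpace ENNReal
open MeasureTheory Set Function Filter

namespace Crest.Agent.X212.Usf71
open An An.Pre Sob92 Prm93 Fred93 Mod61 Map77 Nd18 Cyf70 Ell97 Nk89

section abs
variable {X Y Z : Type} [NormedAddCommGroup X] [NormedAddCommGroup Y] [NormedAddCommGroup Z]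

section
variable [NormedSpace ℝ X] [NormedSpace ℝ Y] [NormedSpace ℝ Z] {L L' : X →L[ℝ] Y} {r : Z →L[ℝ] X}

/-- `r` is controlled by `L ∘ r` modulo compact operators -/
def LP (L : X →L[ℝ] Y) (r : Z →L[ℝ] X) : Prop := ∃ Q : Y →L[ℝ] X, Cq (Q ∘L L ∘L r) r

theorem LP.est (h : LP L (.id ℝ X)) : ∃ (K : X →L[ℝ] X) (C : ℝ), IsCompactOperator K ∧ Est L K C :=
  let ⟨_, h⟩ := h; ⟨_, _, h, est_of_left⟩

theorem LP.cq (h : LP L r) (e : Cq (L' ∘L r) (L ∘L r)) : LP L' r :=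
  let ⟨Q, h⟩ := h; ⟨Q, (e.left Q).trans h⟩

theorem lp_of_fr [CompleteSpace X] [CompleteSpace Y] (h : L.IsFredholm) : LP L r :=
  let ⟨Q, h, _⟩ := exists_par h; ⟨Q, h.right r⟩

theorem lp_patch {α : Type} [Fintype α] {X' Y' : α → Type} [∀ a, NormedAddCommGroup (X' a)]
    [∀ a, NormedSpace ℝ (X' a)] [∀ a, NormedAddCommGroup (Y' a)] [∀ a, NormedSpace ℝ (Y' a)]
    {A' : ∀ a, X' a →L[ℝ] Y' a} {r : ∀ a, X →L[ℝ] X' a} {r' : ∀ a, Y →L[ℝ] Y' a}
    {e : ∀ a, X' a →L[ℝ] X} {s : X →L[ℝ] X} (hA : ∀ a, LP (A' a) (r a))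
    (h1 : ∀ a, Cq (r' a ∘L L) (A' a ∘L r a)) {Q : Y →L[ℝ] X} (h3 : Cq (Q ∘L L) s)
    (h5 : ∀ x, s x + ∑ a, e a (r a x) = x) : LP L (.id ℝ X) := by
  choose P hP using hA
  exact ⟨Q + ∑ a, e a ∘L P a ∘L r' a, (h3.add (Cq.sum Finset.univ fun a _ =>
    (((h1 a).left (P a)).trans (hP a)).left (e a))).congr (fun x => by simp) fun x => by simp [h5]⟩

end

variable [InnerProductSpace ℝ X] [InnerProductSpace ℝ Y] [CompleteSpace X] [CompleteSpace Y]
  {L : X →L[ℝ] Y} {C : ℝ}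

theorem lp_hil [InnerProductSpace ℝ Z] [CompleteSpace Z] {K : X →L[ℝ] Z} (hK : IsCompactOperator K)
    (h : Est L K C) : LP L (.id ℝ X) := by
  obtain ⟨e, he⟩ := exists_equiv_of_coercive (L.adjoint ∘L L + K.adjoint ∘L K)
    (c := 1 / (2 * C ^ 2 + 1)) (by positivity) fun u => by
      rw [show ⟪(L.adjoint ∘L L + K.adjoint ∘L K) u, u⟫_ℝ = ‖L u‖ ^ 2 + ‖K u‖ ^ 2 by
        simp [inner_add_left, ContinuousLinearMap.adjoint_inner_left], mul_assoc, one_div,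
        inv_mul_le_iff₀ (by positivity)]
      have h1 := mul_self_le_mul_self (norm_nonneg u) (h u)
      nlinarith [sq_nonneg (C * (‖L u‖ - ‖K u‖)), sq_nonneg ‖L u‖, sq_nonneg ‖K u‖]
  refine ⟨(e.symm : X →L[ℝ] X) ∘L L.adjoint, .of_cpt (K := -((e.symm : X →L[ℝ] X) ∘L K.adjoint ∘L K))
    ((hK.clm_comp K.adjoint).clm_comp (e.symm : X →L[ℝ] X)).neg fun u => ?_⟩
  have := e.symm_apply_apply u
  rw [show e u = _ from DFunLike.congr_fun he u] at this
  simpa [← sub_eq_add_neg, eq_sub_iff_add_eq] using this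

theorem lp_of_est [NormedSpace ℝ Z] {K : X →L[ℝ] Z} (hK : IsCompactOperator K) (h : Est L K C) :
    LP L (.id ℝ X) := by
  have := h.finite_ker hK
  have : CompleteSpace L.ker := FiniteDimensional.complete ℝ _
  obtain ⟨π, hπ⟩ := Submodule.ClosedComplemented.of_finiteDimensional L.ker
  obtain ⟨c, c0, hb⟩ := h.bound_mod_ker hK π hπ
  refine lp_hil (K := π) (C := c + 1) (by simpa using cq_fin π (.id ℝ _)) fun x => ?_
  have h1 := hb (x - π x) (by rw [map_sub, hπ, sub_self])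
  rw [map_sub, show L (π x : X) = 0 from (π x).2, sub_zero] at h1
  have h2 : ‖x‖ ≤ ‖x - π x‖ + ‖π x‖ := norm_le_norm_sub_add _ _
  nlinarith [norm_nonneg (L x), norm_nonneg (π x)]

/-- the estimate is only needed on the range -/
theorem lp_of_range {X' : Type} [NormedAddCommGroup X'] [NormedSpace ℝ X'] [NormedSpace ℝ Z]
    {r : X' →L[ℝ] X} {K : X →L[ℝ] Z} (hK : IsCompactOperator K)
    (h : ∀ x, ‖r x‖ ≤ C * (‖L (r x)‖ + ‖K (r x)‖)) : LP L r := by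
  let S := r.range.topologicalClosure
  have : CompleteSpace S := r.range.isClosed_topologicalClosure.completeSpace_coe
  obtain ⟨Q, hQ⟩ := lp_of_est (L := L ∘L S.subtypeL) (K := K ∘L S.subtypeL) (C := C)
    (hK.comp_clm S.subtypeL) fun x =>
    show x.1 ∈ {x | ‖x‖ ≤ C * (‖L x‖ + ‖K x‖)} from closure_minimal (s := (r.range : Set X))
      (by rintro _ ⟨x, rfl⟩; exact h x) (isClosed_le (by fun_prop) (by fun_prop)) x.2
  exact ⟨S.subtypeL ∘L Q, ((hQ.left S.subtypeL).right (r.codRestrict S fun x =>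
    r.range.le_topologicalClosure ⟨x, rfl⟩)).congr (fun _ => rfl) fun _ => rfl⟩

end abs

variable {E : Type} [NormedAddCommGroup E] [NormedSpace ℝ E] [FiniteDimensional ℝ E]
  [MeasurableSpace E] [BorelSpace E]
  {HM : Type} [TopologicalSpace HM] {I : ModelWithCorners ℝ E HM} [I.Boundaryless]
  {M : Type} [TopologicalSpace M] [ChartedSpace HM M] [IsManifold I ∞ M]
  [MeasurableSpace M] [T2Space M] [BorelSpace M] [SecondCountableTopology M]
  {ι κ : Type} [Fintype ι] [Fintype κ] {lam : Type} [Fintype lam]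
  {T : Type} [NormedAddCommGroup T] [NormedSpace ℝ T]
  {V W : Type} [NormedAddCommGroup V] [InnerProductSpace ℝ V] [FiniteDimensional ℝ V]
  [NormedAddCommGroup W] [InnerProductSpace ℝ W] [FiniteDimensional ℝ W]

/-- the interior left parametrix -/
theorem int_left {F G : Fr I M ι} {A : Op M ι V W} {θ : M → ℝ} (t : Tw F G)
    (hA : Nc F.toPre G.P A) (h : Sm I θ) (hc : HasCompactSupport θ) (cl : A.Cliff G) {j : ℕ}
    {L : F.H (j + 2) A.p →L[ℝ] F.H (j + 1) A.q} (h1 : Cq (smulH F.toPre _ A.q θ ∘L L)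
      (smulH F.toPre _ A.q θ ∘L LH F.toPre G.toPre (j + 1) A.p A.q A)) :
    ∃ Q, Cq (Q ∘L L) (smulH F.toPre _ A.p θ) := by
  obtain ⟨Q, R, e⟩ := exists_left t hA cl j
  have c1 := (Cht98.rellich_smul (F := F.toPre) (q := A.p) h hc (j + 1).lt_succ_self).clm_comp R
  have q1 : Cq (smulH F.toPre (j + 2) A.p θ)
      (Q ∘L LH F.toPre G.toPre (j + 1) A.p A.q A ∘L smulH F.toPre (j + 2) A.p θ) :=
    .of_cpt (K := R ∘L smulH F.toPre _ A.p θ ∘L F.incl (j + 2) (j + 1) A.p) c1 fun x =>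
      (e _).symm.trans (congrArg (_ + R ·) (incl_smulH (Cb_of_hcs h hc) (j + 1).le_succ x))
  exact ⟨Q ∘L smulH F.toPre _ A.q θ, ((h1.trans (cq_comm t hA h hc _)).left Q).trans q1.symm⟩

/-! ### terms of order zero -/

section zero
variable {ι' : Type} [Fintype ι'] {p : M → V →L[ℝ] V} {q : M → W →L[ℝ] W} {g : M → V →L[ℝ] W}
  {k : ℕ} {A : Op M ι V W}

variable (k p q g) in
/-- multiplication as an operator of order one -/
def Z0 (F : Pre I M ι') : F.H (k + 1) p →L[ℝ] F.H k q := F.incl (k + 1) k q ∘L F.mulH (k + 1) p q g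

theorem rep_Z0 {F : Pre I M ι'} (hg : F.Cb g) (hm : Maps p q g) :
    F.RepT F (Z0 p q g k F) fun u x => g x (u x) :=
  RepT_comp (rep_incl k.le_succ) (rep_mulH hg hm)

theorem val_Z0 {F : Pre I M ι'} {S : ℝ} (hS : Sup F S) (hk : 4 ≤ k) (hg : F.Cb g) (hm : Maps p q g)
    (u : F.H (k + 1) p) (x : M) : F.val k q (Z0 p q g k F u) x = g x (F.val (k + 1) p u x) :=
  (congrFun (val_incl hS hk k.le_succ _) x).trans (val_mulH hS (by omega) hg hm u x)

variable (A g) in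
/-- adding a term of order zero -/
@[reducible] def addB : Op M ι V W := ⟨A.p, A.q, A.σ, fun x => A.B x + g x⟩

variable {F : Fr I M ι'} {G : Fr I M ι}

theorem nc_addB {P : ι → ι → M → ℝ} (hA : Nc F.toPre P A) (hg : F.Cb g)
    (hq : ∀ x v, A.q x (g x v) = g x v) : Nc F.toPre P (addB g A) :=
  ⟨hA.p, hA.q, hA.σ, Cb_add hA.B hg, hA.alg.p, hA.alg.q, hA.alg.σp, hA.alg.qσ,
    fun x v => by simp [hA.alg.qB, hq], hA.alg.Pσ⟩

variable (t : Tw F G) (hA : Nc F.toPre G.P A)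
include t hA

theorem LH_addB (hg : F.Cb g) (hq : ∀ x v, A.q x (g x v) = g x v) :
    LH F.toPre G.toPre k A.p A.q (addB g A) =
      LH F.toPre G.toPre k A.p A.q A + Z0 A.p A.q g k F.toPre :=
  RepT_eq (t.rep (nc_addB hA hg hq) k) (RepT_add (t.rep hA k) (rep_Z0 hg (Maps.of_left hq)))
    fun u => funext fun x => by simp [Pre.op, add_assoc]

/-- from an `L²` estimate -/
theorem lp_l2 (cl : A.CliffL G) {X : Type} [NormedAddCommGroup X] [NormedSpace ℝ X]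
    {r : X →L[ℝ] F.H (k + 1) A.p} {C : ℝ} (h : ∀ x, ‖F.incl (k + 1) 0 _ (r x)‖ ≤
      C * ‖F.incl k 0 _ (LH F.toPre G.toPre k A.p A.q A (r x))‖) :
    LP (LH F.toPre G.toPre k A.p A.q A) r := by
  obtain ⟨_, h1, h2⟩ := t.good hA
  obtain ⟨K, hK⟩ := gard h1 h2 cl k
  let a := ‖((chg (k + 1) A.p t.cmp).symm : G.H (k + 1) A.p →L[ℝ] F.H (k + 1) A.p)‖
  let b := ‖(chg k A.q t.cmp : F.H k A.q →L[ℝ] G.H k A.q)‖
  let c := ‖(chg 0 A.p t.cmp : F.H 0 A.p →L[ℝ] G.H 0 A.p)‖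
  refine lp_of_range (K := (0 : _ →L[ℝ] ℝ)) (C := a * (|K| * (b + c * |C|))) isCompactOperator_zero
    fun x => ?_
  have e1 := hK (chg _ _ t.cmp (r x))
  rw [← t.chg_LH hA, ← chg_incl _ (Nat.zero_le _)] at e1
  have e2 := ((chg (k + 1) A.p t.cmp).symm : G.H (k + 1) A.p →L[ℝ] F.H (k + 1) A.p).le_opNorm
    (chg _ _ t.cmp (r x))
  rw [ContinuousLinearEquiv.coe_coe, ContinuousLinearEquiv.symm_apply_apply] at e2
  have e3 := (h x).trans (mul_le_mul (le_abs_self C) (norm_incl_le k.zero_le _) (norm_nonneg _)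
    (abs_nonneg C))
  refine e2.trans ?_
  rw [_root_.zero_apply, norm_zero, add_zero, mul_assoc, mul_assoc]
  refine mul_le_mul_of_nonneg_left (e1.trans (mul_le_mul (le_abs_self K) ?_ (by positivity)
    (abs_nonneg K))) (norm_nonneg _)
  rw [add_mul, mul_assoc]
  exact add_le_add ((chg k A.q t.cmp : F.H k A.q →L[ℝ] G.H k A.q).le_opNorm _)
    (((chg 0 A.p t.cmp : F.H 0 A.p →L[ℝ] G.H 0 A.p).le_opNorm _).trans
      (mul_le_mul_of_nonneg_left e3 (norm_nonneg _)))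

end zero

/-! ### patching -/

section og
variable {𝔉 : Fam I M ι lam T} (o : Ref 𝔉) (k : ℕ)
  (g : M → Cf ι (Fin o.m.N) →L[ℝ] P2 o.m.A (Ef ι (Fin o.m.N)))

/-- bounded terms of order zero -/
structure Og : Prop where
  cb : 𝔉.F0.Cb g
  pr : ∀ x v, ps o.Pg (bd o).pE x (g x v) = g x v

/-- the operator of a term of order zero -/
abbrev ZR : 𝔉.F0.H (k + 1) (bd o).pC →L[ℝ] 𝔉.F0.H k (ps o.Pg (bd o).pE) := Z0 _ _ g k _

end og

variable {𝔉 : Fam I M (Option κ) lam T} {δ : ℝ} {X : Ends 𝔉 δ} {R b : ℝ} {k : ℕ}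
  {o : Ref 𝔉} {r n m : ℕ} {e : T → PtX M (Option κ) lam r n m} {f : o.C r k → o.Y n m k}
  {g : M → Cf (Option κ) (Fin o.m.N) →L[ℝ] P2 o.m.A (Ef (Option κ) (Fin o.m.N))}

theorem rs_Z0 {a : X.A} {O' : Set ((X.P a).Y.M × ℝ)} {p : M → V →L[ℝ] V} {q : M → W →L[ℝ] W} {p' q'}
    {g : M → V →L[ℝ] W} {g'} (hk : 4 ≤ k) (mp : X.Mb a b p p') (mq : X.Mb a b q q')
    (c : 𝔉.F0.Cb g) (m : Maps p q g) (c' : (X.FZ a O').Cb g') (m' : Maps p' q' g')
    (e : ∀ z ∈ (X.P a).H b, g' z = g ((X.P a).K.ψ z)) : X.rs a O' b k q q' ∘L Z0 p q g k _ =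
      Z0 p' q' g' k _ ∘L X.rs a O' b (k + 1) p p' := by
  have s := (X.supZ a O').choose_spec
  refine ContinuousLinearMap.ext fun u => val_injective s hk (funext fun z => ?_)
  rw [ContinuousLinearMap.comp_apply, ContinuousLinearMap.comp_apply, mq.val_rs hk,
    val_Z0 X.ok.sup hk c m, val_Z0 s hk c' m', mp.val_rs (by omega), map_smul]
  rcases le_or_gt ((X.P a).sg * z.2) b with k | k
  · rw [show (X.P a).θZ (b + 1) z = 0 from hc_zero (by linarith), zero_smul, zero_smul]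
  · rw [e z k]

variable (X o k R b e g) in
/-- the end `a` is controlled by the cylinder -/
def EndLP (t : T) (a : X.A) : Prop :=
  ∀ h h0, ∃ eZ fZ gZ, Aff (refZ T0 δ h h0) (Fs (famZ T0 (X.P a).D δ ((X.P a).O' R))) 0 0 0
      (fun _ => eZ) ∧ RepF (fun _ => eZ) fZ ∧ LocZ (δ := δ) h h0 k eZ (-(X.P a).sg) ∧
    (X.P a).Loc o k δ R e t h h0 eZ ∧ Og (refZ T0 δ h h0) gZ ∧
    (∀ z ∈ (X.P a).H b, gZ z = g ((X.P a).K.ψ z)) ∧
    LP (TT k fZ (yZ δ h h0) + ZR _ k gZ) (Ends.rC b k h h0)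

/-- **upper semi-Fredholm patching** -/
theorem lp_TT (hk : 7 ≤ k) (hl : X.Lit o R) (he : Aff o (Fs 𝔉) r n m e) (hf : RepF e f)
    (y : Pnt o r) (hb : R ≤ b) (h1 : 1 ≤ b) (hg : Og o g)
    (hE : ∀ a, X.Act a → EndLP X R b k o e g y.t a) : LP (TT k f y + ZR o k g) (.id ℝ _) := by
  classical
  obtain ⟨j, rfl⟩ : ∃ j, k = j + 1 := ⟨k - 1, by omega⟩
  have hb' := hl.le.trans hb
  let h (a : {a // X.Act a}) := (hl.lit a).adm X.ok (X.okP a) hl.le y.ht
  let h0 (a : {a // X.Act a}) := End.off (o := o) (t := y.t) X.ok (X.okP a) hl.le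
  choose eZ fZ gZ c1 c2 c3 c4 c5 c7 c8 using fun a : {a // X.Act a} => hE a a.2 (h a) (h0 a)
  have H := (adj_rem X.ok).hy o y.ht
  have mC := fun a : {a // X.Act a} => Ends.mbC (h := h a) (h0 := h0 a) hl a.2 hb h1 y.ht
  have mF := fun a : {a // X.Act a} => Ends.mbF (h := h a) (h0 := h0 a) hl a.2 hb h1 y.ht
  have s1 := Ends.sm_θ0 hb'
  have s2 := Ends.hcs_θ0 hb'
  obtain ⟨Q, hQ⟩ := int_left (A := (bd o).full (Fs 𝔉 y.t) (u0 o y.t)) H.toTw
    (H.nc_full ((sb_u0 o X.ok).cb _ y.ht)) s1 s2 (H.toOK.cliff_full H.P _)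
    (L := TT (j + 1) f y + ZR o _ g) (((bridge_0 X.ok hk he hf y s1 s2).add
      (lc_incl (𝔉.F0.mulH _ _ _ g) _ s1 s2)).congr
      (fun _ => map_add (smulH _ _ (ps o.Pg (bd o).pE) (X.θ0 b)) _ _) fun _ => (add_zero _).symm)
  refine lp_patch c8 (r' := fun a => Ends.rF b (j + 1) (h a) (h0 a)) (fun a => ?_) hQ
    (Ends.part (by omega) hb' mC fun a ha x hx => off_pC X.ok.sub (Ends.off_U ha hb' hx))
  exact ((Ends.bridge_rs hl a.2 hb h1 hk he hf (c1 a) (c2 a) (c4 a) (c3 a) y rfl).add (.of_eq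
    (rs_Z0 (by omega) (mC a) (mF a) hg.cb (.of_left hg.pr) (c5 a).cb (.of_left (c5 a).pr)
      (c7 a)))).congr (fun u => map_add (Ends.rF b (j + 1) (h a) (h0 a)) _ _) fun _ => rfl

end Crest.Agent.X212.Usf71
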