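import Crest.Agent.X212.Usf71.Abs
import Crest.Agent.X212.Nk89.Gwa
import Crest.Agent.X212.Inv14.Eq0

/-!
# Row 212, USF (helper71), part 2: the drift, the ends, the full linearisation
-/

set_option autoImplicit false
set_option linter.unusedSectionVars false
noncomputable section
open scoped Manifold ContDiff Topology InnerProductSpace ENNReal
open MeasureTheory Set Function Filter

namespace Crest.Agent.X212.Usf71
open An An.Pre Sob92 Prm93 Fred93 Mod61 Map77 Nd18 Cyf70 Ell97 Nk89 Sym93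

section abs
variable {C Y H T : Type} [NormedAddCommGroup C] [NormedSpace ℝ C] [NormedAddCommGroup Y]
  [NormedSpace ℝ Y] [NormedAddCommGroup H] [NormedSpace ℝ H] [NormedAddCommGroup T] [NormedSpace ℝ T]

theorem LP.of_comp {L : C →L[ℝ] Y} {r : T →L[ℝ] C} {L' : C →L[ℝ] H} (h : LP L' r) (P : Y →L[ℝ] H)
    (e : ∀ x, P (L x) = L' x) : LP L r :=
  let ⟨Q, h⟩ := h; ⟨Q ∘L P, h.congr (fun _ => congrArg Q (e _)) fun _ => rfl⟩

theorem LP.tri {A : C →L[ℝ] Y} {D : H →L[ℝ] T} (B : C →L[ℝ] T) (h : LP A (.id ℝ C))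
    (h' : LP D (.id ℝ H)) : LP ((A ∘L .fst ℝ C H).prod (B.coprod D)) (.id ℝ _) := by
  obtain ⟨Q, h⟩ := h
  obtain ⟨Q', h'⟩ := h'
  refine ⟨.inl ℝ C H ∘L Q ∘L .fst ℝ Y T + .inr ℝ C H ∘L Q' ∘L (.snd ℝ Y T - B ∘L Q ∘L .fst ℝ Y T),
    ((((h.right (.fst ℝ C H)).left (.inl ℝ C H)).add ((h'.right (.snd ℝ C H)).left (.inr ℝ C H))).sub
      (((h.sub (.refl (.id ℝ C))).right (.fst ℝ C H)).left (.inr ℝ C H ∘L Q' ∘L B))).congr
      (fun x => ?_) fun x => by simp⟩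
  simp only [ContinuousLinearMap.comp_apply, _root_.add_apply, _root_.sub_apply, map_sub, map_add,
    ContinuousLinearMap.coe_fst', ContinuousLinearMap.coe_snd', ContinuousLinearMap.prod_apply,
    ContinuousLinearMap.coprod_apply, ContinuousLinearMap.id_apply]
  abel

variable [CompleteSpace C] [CompleteSpace Y] [CompleteSpace H]

/-- the lower bound from the estimate, injectivity and the kernel -/
theorem low_lp {F : C → Y} {A : C →L[ℝ] Y} {B : C →L[ℝ] H} {τ : C →L[ℝ] T} {x₀ : C}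
    (hF : HasFDerivAt F A x₀) (h0 : F x₀ = 0) (hs : Surjective A) (hf : LP (A.prod B) (.id ℝ C))
    (hi : ∀ u, A u = 0 → B u = 0 → u = 0) (hk : ∀ u, A u = 0 → τ u = 0) : LowAt F B τ x₀ :=
    fun c hc => by
  obtain ⟨_, _, k1, k2⟩ := hf.est
  obtain ⟨K, K0, k3⟩ := k2.bound_of_inj k1 ((injective_iff_map_eq_zero _).2 fun u e =>
    hi u (congrArg Prod.fst e) (congrArg Prod.snd e))
  obtain ⟨K', K1, k4⟩ := A.exists_preimage_norm_le hs
  have h1 : ∀ u, ‖u‖ ≤ K * (‖A u‖ + ‖B u‖) := fun u => (k3 u).trans (mul_le_mul_of_nonneg_left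
    (max_le (le_add_of_nonneg_right (norm_nonneg _)) (le_add_of_nonneg_left (norm_nonneg _))) K0.le)
  have h2 : ∀ u, ‖τ u‖ ≤ ‖τ‖ * (K' * ‖A u‖) := fun u => by
    obtain ⟨u', a1, a2⟩ := k4 (A u)
    rw [← sub_eq_zero.1 ((map_sub τ u' u).symm.trans (hk _ (by rw [map_sub, a1, sub_self])))]
    exact (τ.le_opNorm _).trans (mul_le_mul_of_nonneg_left a2 (norm_nonneg _))
  set L := K * (1 + c * (‖τ‖ * K')) + 1
  have L1 : 0 < L := by positivity
  refine ⟨2 * L, by positivity, (hF.isLittleO.def (c := 1 / (2 * L)) (by positivity)).mono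
    fun v hv β hβ hb => ?_⟩
  rw [h0, sub_zero] at hv
  set u := v - x₀
  have a1 : ‖A u‖ ≤ ‖F v‖ + 1 / (2 * L) * ‖u‖ :=
    (norm_le_insert' _ (F v)).trans (by rw [norm_sub_rev]; gcongr)
  have a2 : ‖u‖ ≤ L * (‖A u‖ + β) := by
    have := mul_le_mul_of_nonneg_left (h2 u) hc
    have t : 0 ≤ c * (‖τ‖ * K') := by positivity
    nlinarith [h1 u, mul_le_mul_of_nonneg_left (hb.trans (add_le_add_right this β)) K0.le,
      norm_nonneg (A u), mul_nonneg (mul_nonneg K0.le t) hβ]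
  have a3 : L * (1 / (2 * L) * ‖u‖) = ‖u‖ / 2 := by field_simp
  nlinarith [mul_le_mul_of_nonneg_left a1 L1.le]

variable {h : Type} [Fintype h] {V : h → Type} [∀ i, NormedAddCommGroup (V i)]
  [∀ i, InnerProductSpace ℝ (V i)] [∀ i, CompleteSpace (V i)]

theorem lp_bigF {f : C → Y} {A : ∀ i, C → V i →L[ℝ] V i} {v : C × ∀ i, V i}
    (hf : DifferentiableAt ℝ f v.1) (hA : ∀ i, DifferentiableAt ℝ (A i) v.1) {σ : C →L[ℝ] H}
    (h1 : LP ((fderiv ℝ f v.1).prod σ) (.id ℝ C)) (h2 : ∀ i, Fr (A i v.1) 0) :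
    LP ((fderiv ℝ (bigF f A) v).prod (σ ∘L .fst ℝ _ _)) (.id ℝ _) := by
  obtain ⟨B, hB⟩ := hasF hf hA
  rw [hB.fderiv]
  exact (h1.tri B (lp_of_fr (fr_dgl h2).1)).of_comp (((ContinuousLinearMap.fst ℝ _ _).prodMap
    (.id ℝ H)).prod (.fst ℝ _ _ ∘L .snd ℝ _ _ ∘L .fst ℝ _ _)) fun _ => rfl

end abs

variable {E : Type} [NormedAddCommGroup E] [NormedSpace ℝ E] [FiniteDimensional ℝ E]
  [MeasurableSpace E] [BorelSpace E]
  {HM : Type} [TopologicalSpace HM] {I : ModelWithCorners ℝ E HM} [I.Boundaryless]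
  {M : Type} [TopologicalSpace M] [ChartedSpace HM M] [IsManifold I ∞ M]
  [MeasurableSpace M] [T2Space M] [BorelSpace M] [SecondCountableTopology M]
  {ι κ : Type} [Fintype ι] [Fintype κ] {lam : Type} [Fintype lam]
  {T : Type} [NormedAddCommGroup T] [NormedSpace ℝ T]

section fam
variable {𝔉 : Fam I M ι lam T} {o : Ref 𝔉} {r n m k : ℕ} {f : o.C r k → o.Y n m k}
  {μ : ι → M → ℝ}

variable (o μ) in
/-- the drift of the gauge row -/
def drm (x : M) : Cf ι (Fin o.m.N) →L[ℝ] o.m.A := ∑ a, μ a x • o.Pg x ∘L Map77.pj _ a ∘L fa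

theorem drm_apply (x : M) (v : Cf ι (Fin o.m.N)) : drm o μ x v = ∑ a, μ a x • o.Pg x (fa v a) := by
  simp [drm, Map77.pj]

variable (o μ k) in
/-- the drift on the Sobolev spaces -/
abbrev DH : 𝔉.F0.H (k + 1) (bd o).pC →L[ℝ] 𝔉.F0.H k o.Pg := Z0 _ _ (drm o μ) k _

variable (o μ) in
/-- the drift as a term of the gauge fixed linearisation -/
def gD (x : M) : Cf ι (Fin o.m.N) →L[ℝ] P2 o.m.A (Ef ι (Fin o.m.N)) := i1 _ _ ∘L drm o μ x

variable (h : 𝔉.OK)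
include h

/-- from the fields to all variables -/
theorem lp_slc [FiniteDimensional ℝ T] (y : Pnt o r)
    {D : 𝔉.F0.H (k + 1) (bd o).pC →L[ℝ] 𝔉.F0.H k o.Pg}
    (H : LP (TT k f y + iH1 _ k o.Pg _ ∘L D) (.id ℝ _)) :
    LP ((fderiv ℝ f (y.pt k)).prod (sig (Fs 𝔉) k y + D ∘L sC o r k y.t)) (.id ℝ _) := by
  obtain ⟨Q, hQ⟩ := H
  let N : o.C r k →L[ℝ] o.C r k := (.inr ℝ _ _ ∘L .inr ℝ _ _) ∘L (.snd ℝ _ _ ∘L .snd ℝ _ _)
  have c : Cq N 0 := .zero (cq_fin _ _)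
  have e : ∀ v, sC' o r k y.t (sC o r k y.t v) = v - N v := fun v => sC_inj h y.ht
    ((sC_sC' h y.ht _).trans (by
      rw [map_sub, show sC o r k y.t (N v) = 0 by simp [N, sC, jC_apply], sub_zero]))
    (sub_self v.2.2).symm
  refine ⟨sC' o r k y.t ∘L Q ∘L (iH2 _ k o.Pg _ ∘L sY o n m k).coprod (iH1 _ k o.Pg _),
    ((((hQ.right (sC o r k y.t)).left (sC' o r k y.t)).add (c.left (sC' o r k y.t ∘L Q ∘L
      iH2 _ k o.Pg _ ∘L sY o n m k ∘L fderiv ℝ f (y.pt k)))).trans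
      ((Cq.refl (.id ℝ _)).sub c |>.congr (fun v => ?_) fun v => (sub_zero _).symm)).congr
      (fun v => ?_) fun _ => rfl⟩
  · simp [e]
  · simp only [TG, sig, ContinuousLinearMap.comp_apply, _root_.add_apply, map_add, e, map_sub,
      ContinuousLinearMap.prod_apply, ContinuousLinearMap.coprod_apply, ContinuousLinearMap.id_apply]
    abel

variable (hμ : ∀ a, 𝔉.F0.Cb (μ a))
include hμ

theorem cb_drm : 𝔉.F0.Cb (drm o μ) :=
  Cb_sum _ fun a _ => Cb_smul (hμ a) (Cb_comp (cb_Pg o h) (Cb_const _))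

omit hμ in
theorem pr_drm (x : M) (v : Cf ι (Fin o.m.N)) : o.Pg x (drm o μ x v) = drm o μ x v := by
  simp only [drm_apply, map_sum, map_smul, show ∀ w, o.Pg x (o.Pg x w) = _ from (ok_bd o h).g.idem x]

theorem og_gD : Og o (gD o μ) :=
  ⟨Cb_comp (Cb_const _) (cb_drm h hμ), fun x _ => maps_i1 x _ (pr_drm h x _)⟩

theorem ZR_gD : ZR o k (gD o μ) = iH1 _ k o.Pg _ ∘L DH o k μ :=
  RepT_eq (rep_Z0 (og_gD h hμ).cb (.of_left (og_gD h hμ).pr))
    (RepT_comp rep_iH1 (rep_Z0 (cb_drm h hμ) (.of_left (pr_drm h)))) fun _ => rfl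

end fam

end Crest.Agent.X212.Usf71
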